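import Vale.Agent.P014T.Ki.Abs
import Vale.Agent.P004F.En.Rep
import Vale.Agent.P004S.Rec
import Vale.Agent.P004S.Gal1

/-!
# P014T, block KISO: the pairing on the points of order a power of two (helper25)
-/

set_option linter.all false

open scoped Classical

noncomputable section

namespace Vale.Agent.P014T.Ki

open Matrix
open Vale.Agent.P022 (Qb GQ)
open Vale.Agent.P004S.Ga (K O)
open Vale.Agent.P004S.Aq
open Vale.Agent.P004F.Rc (mq mq_eq mq_zero hn hn_mul)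
open Vale.Agent.P004M.TE hiding Qb GQ
open P027M.K

variable {A B : ℤ} (hD : 4 * (A : ℚ) ^ 3 + 27 * (B : ℚ) ^ 2 ≠ 0)

/-- the determinant form on the Tate module -/
def dt (s t : Tm (A : ℚ) (B : ℚ)) : ℤ_[2] :=
  (bs hD).repr s 0 * (bs hD).repr t 1 - (bs hD).repr s 1 * (bs hD).repr t 0

/-- a lift to the Tate module -/
def lf (n : ℕ) (x : Pt A B) : Tm (A : ℚ) (B : ℚ) := Function.invFun (TM.cp n) x

/-- the pairing on the points of order `2 ^ n` -/
def wp (n : ℕ) (x y : Pt A B) : K := hn n * dt hD (lf n x) (lf n y)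

variable {n : ℕ} {x y : Pt A B}

theorem lf_cp (n : ℕ) (s : Tm (A : ℚ) (B : ℚ)) : ∃ t, lf n (TM.cp n s) = s + (2 : ℤ_[2]) ^ n • t := by
  obtain ⟨t, e⟩ := (TM.cp_eq_zero_iff (x := lf n (TM.cp n s) - s) (r := n)).1 (by
    rw [map_sub, lf, Function.invFun_eq (f := TM.cp n) ⟨s, rfl⟩, sub_self])
  exact ⟨t, sub_eq_iff_eq_add'.1 e⟩

theorem wp_cp (n : ℕ) (s t : Tm (A : ℚ) (B : ℚ)) :
    mq (wp hD n (TM.cp n s) (TM.cp n t)) = mq (hn n * dt hD s t) := by
  obtain ⟨s', e⟩ := lf_cp n s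
  obtain ⟨t', e'⟩ := lf_cp n t
  have k : dt hD (s + (2 : ℤ_[2]) ^ n • s') (t + (2 : ℤ_[2]) ^ n • t') = dt hD s t +
      2 ^ n * (dt hD s t' + dt hD s' t + 2 ^ n * dt hD s' t') := by
    simp only [dt, map_add, map_smul, Finsupp.add_apply, Finsupp.smul_apply, smul_eq_mul]
    ring
  rw [wp, e, e', k, mq_eq]
  generalize dt hD s t' + dt hD s' t + 2 ^ n * dt hD s' t' = z
  refine O_of z.2 ?_
  rw [PadicInt.coe_add, PadicInt.coe_mul, PadicInt.coe_pow, show ((2 : ℤ_[2]) : K) = 2 from rfl]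
  linear_combination (z : K) * hn_mul n

theorem det_mt (g : GQ) : (mt hD g).det = cz g := by
  have d0 : 2 * (4 * A ^ 3 + 27 * B ^ 2) ≠ 0 := mul_ne_zero two_ne_zero (by exact_mod_cast hD)
  have r := P004F.En.rep_ok hD (S := (2 * (4 * A ^ 3 + 27 * B ^ 2)).natAbs.primeFactors)
    (Nat.mem_primeFactors.2 ⟨Nat.prime_two, Int.natCast_dvd.1 (dvd_mul_right _ _),
      Int.natAbs_ne_zero.2 d0⟩)
    fun l hl h k => h (Nat.mem_primeFactors.2 ⟨hl, Int.natCast_dvd.1 k, Int.natAbs_ne_zero.2 d0⟩)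
  have := P004S.Rc.ep_cy r (P004S.cyc_ep _ _ r) g
  rw [P004S.ep, P004S.mt, rep_val, ← RingHom.map_det, cy_apply] at this
  exact Subtype.ext this

theorem dt_rho (g : GQ) (s t : Tm (A : ℚ) (B : ℚ)) :
    dt hD (rho _ _ g s) (rho _ _ g t) = cz g * dt hD s t := by
  have e := fun s => LinearMap.toMatrix_mulVec_repr (bs hD) (bs hD) (rho _ _ g) s
  rw [← det_mt hD, det_fin_two, dt, dt, ← e s, ← e t]
  change (mt hD g *ᵥ _) 0 * (mt hD g *ᵥ _) 1 - (mt hD g *ᵥ _) 1 * (mt hD g *ᵥ _) 0 = _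
  simp only [mulVec, dotProduct, Fin.sum_univ_two]
  ring

theorem dt_add (s s' t : Tm (A : ℚ) (B : ℚ)) : dt hD (s + s') t = dt hD s t + dt hD s' t := by
  simp only [dt, map_add, Finsupp.add_apply]
  ring

theorem dt_skew (s t : Tm (A : ℚ) (B : ℚ)) : dt hD s t = -dt hD t s := by
  simp only [dt]
  ring

theorem dt_smul (i j : ℤ) (s t : Tm (A : ℚ) (B : ℚ)) :
    dt hD (i • s) (j • t) = (i * j : ℤ) * dt hD s t := by
  simp only [dt, map_zsmul, Finsupp.smul_apply, zsmul_eq_mul, Int.cast_mul]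
  ring

/-- the twisted action -/
def tw (ε : GQ → ℤ) (g : GQ) : Pt A B →+ Pt A B := ε g • ga g

theorem tw_apply (ε : GQ → ℤ) (g : GQ) (x : Pt A B) : tw ε g x = ε g • ga g x := rfl

/-- the pairing is compatible with every quadratic twist of the action -/
theorem pr_of (ε : GQ → ℤ) (mul : ∀ g h, ε (g * h) = ε g * ε h) (sq : ∀ g, ε g * ε g = 1)
    (lc : IsLocallyConstant ε) : Pr (tw ε) (wp hD) where
  mul g h x := by simp only [tw_apply, map_zsmul, ga_mul, mul, smul_smul, mul_comm]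
  lc x := (lc.prodMk ((IsLocallyConstant.iff_eventually_eq _).2 fun g => ev_ga g x)).comp
    fun z => z.1 • z.2
  dv := dbl_surj two_ne_zero hD
  addl a a' b := by
    obtain ⟨s, rfl⟩ := TM.exists_cp (hdiv hD) a
    obtain ⟨s', rfl⟩ := TM.exists_cp (hdiv hD) a'
    obtain ⟨t, rfl⟩ := TM.exists_cp (hdiv hD) b
    rw [← map_add, wp_cp, wp_cp, wp_cp, dt_add, PadicInt.coe_add, mul_add, map_add]
  skew a b := by
    obtain ⟨s, rfl⟩ := TM.exists_cp (hdiv hD) a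
    obtain ⟨t, rfl⟩ := TM.exists_cp (hdiv hD) b
    rw [wp_cp, wp_cp, dt_skew, PadicInt.coe_neg, mul_neg, map_neg]
  act {n x y} g a b := by
    obtain ⟨s, rfl⟩ := TM.exists_cp (hdiv hD) a
    obtain ⟨t, rfl⟩ := TM.exists_cp (hdiv hD) b
    simp only [tw_apply, ← cp_rho, ← map_zsmul]
    rw [wp_cp, dt_rho, dt_smul, sq, mq_eq]
    refine O_of (O_mul (O_cy g) (mq_eq.1 (wp_cp hD n s t))) ?_
    rw [Int.cast_one, one_mul, PadicInt.coe_mul, ← cy_apply]
    ring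
  lev {n x y} a b := by
    obtain ⟨s, rfl⟩ := TM.exists_cp (hdiv hD) a
    obtain ⟨t, rfl⟩ := TM.exists_cp (hdiv hD) b
    rw [TM.cp_succ, wp_cp, ← TM.cp_succ s, ← map_nsmul, wp_cp, two_nsmul, dt_add,
      PadicInt.coe_add, hn, hn, pow_succ]
    congr 1
    field_simp
    ring

theorem tw_one : (tw (fun _ => 1) : GQ → Pt A B →+ Pt A B) = ga :=
  funext fun g => AddMonoidHom.ext fun x => one_smul ℤ _

theorem pr : Pr (ga : GQ → Pt A B →+ Pt A B) (wp hD) :=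
  tw_one ▸ pr_of hD (fun _ => 1) (fun _ _ => rfl) (fun _ => rfl) (IsLocallyConstant.const _)

theorem wp_lev (n : ℕ) (x y : Pt A B) : 2 ^ n * wp hD n x y ∈ O :=
  O_of (dt hD (lf n x) (lf n y)).2 (by rw [wp, ← mul_assoc, hn_mul, one_mul])

theorem wp_self (n : ℕ) (x : Pt A B) : wp hD n x x = 0 := by
  rw [wp, dt, mul_comm ((bs hD).repr _ 1), sub_self, PadicInt.coe_zero, mul_zero]

/-- the pairing is not degenerate -/
theorem wp_nd (a : 2 ^ n • x = 0) (h : ∀ y, 2 ^ n • y = 0 → wp hD n x y ∈ O) : x = 0 := by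
  obtain ⟨s, rfl⟩ := TM.exists_cp (hdiv hD) a
  have k : ∀ i, ∃ c, dt hD s (bs hD i) = (2 : ℕ) ^ n * c := fun i => by
    have := (wp_cp hD n s (bs hD i)).symm.trans (mq_zero.2 (h _ (TM.pow_smul_cp _ _)))
    rwa [mq_zero, hn, ← dv_iff, ← RingHom.mem_ker, PadicInt.ker_toZModPow,
      Ideal.mem_span_singleton] at this
  obtain ⟨c, k0⟩ := k 0
  obtain ⟨d, k1⟩ := k 1
  simp [dt] at k0 k1
  refine TM.cp_eq_zero_iff.2 ⟨d • bs hD 0 + -c • bs hD 1, ?_⟩
  rw [← (bs hD).sum_repr s, Fin.sum_univ_two, k1, neg_eq_iff_eq_neg.1 k0, smul_add, smul_smul,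
    smul_smul, mul_neg]
  rfl

end Vale.Agent.P014T.Ki
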