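import Vale.Agent.P014T.Ki.Wp
import Vale.Agent.P004F.Ix.Idx
import Vale.Agent.P022K.G2.Adp

/-!
# P014T, block KISO: isotropy at the odd primes and at infinity (helper25)
-/

set_option linter.all false

open scoped Classical

noncomputable section

namespace Vale.Agent.P014T.Ki

open NumberField WeierstrassCurve.Affine
open Vale.Agent.P022 (Qb GQ)
open Vale.Agent.P022K.G2 (St ip)
open Vale.Agent.P022D.W (dec inP_le_dec phi_mem exists_phi)
open Vale.Agent.P022E.GW (Ov)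
open Vale.Agent.P004S.Ga (K O B2)
open Vale.Agent.P004S.Aq (cy)
open Vale.Agent.P004M.TE (Pt ga Cv xp_ga)
open Vale.Agent.P004H.H666 (xp xp_neg)
open Vale.Agent.P004K (K1)
open Vale.Agent.P004F Qx Qx.Fg P179W

section val

variable {Γ : Type} [LinearOrderedCommGroupWithZero Γ] {v : Valuation Qb Γ}

/-- finitely many classes -/
theorem cls {R : Set Qb} {q : ℕ} {π : Qb} (π0 : π ≠ 0) (hq : 1 < q)
    (h1 : ∀ a ∈ R, v (a ^ q - a) < 1) (h2 : ∀ a ∈ R, ∀ b ∈ R, v (a - b) < 1 → (a - b) / π ∈ R)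
    (M : ℕ) : ∃ T : Set Qb, T.Finite ∧ ∀ a ∈ R, ∃ t ∈ T, v (a - t) < v π ^ M := by
  obtain ⟨T, f, hT⟩ := Ix.res (v := v) hq
  let r : Qb → Qb := fun t => if h : ∃ a ∈ R, v (a - t) < 1 then h.choose else 0
  have hr : ∀ a ∈ R, ∃ s ∈ r '' T, s ∈ R ∧ v (a - s) < 1 := fun a ha => by
    obtain ⟨t, ht, h⟩ := hT a (h1 a ha)
    have k : ∃ a ∈ R, v (a - t) < 1 := ⟨a, ha, h⟩
    refine ⟨_, ⟨t, ht, dif_pos k⟩, k.choose_spec.1, ?_⟩
    rw [← sub_sub_sub_cancel_right a _ t]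
    exact v.map_sub_lt h k.choose_spec.2
  induction M with
  | zero => exact ⟨T, f, fun a ha => by simpa using hT a (h1 a ha)⟩
  | succ M ih =>
    obtain ⟨T', f', h'⟩ := ih
    refine ⟨_, (f.image r).image2 (fun s t => s + π * t) f', fun a ha => ?_⟩
    obtain ⟨s, hs, k1, k2⟩ := hr a ha
    obtain ⟨t, ht, k3⟩ := h' _ (h2 a ha s k1 k2)
    refine ⟨_, Set.mem_image2_of_mem hs ht, ?_⟩
    rw [show a - (s + π * t) = π * ((a - s) / π - t) by field_simp; ring, map_mul, pow_succ']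
    exact mul_lt_mul_of_pos_left k3 (zero_lt_iff.2 (by simpa using π0))

/-- points with close first coordinates -/
theorem near {A B : ℤ} {Q R : Pt A B} (a : ¬ KerV v Q) (b : ¬ KerV v R)
    (h : v (xp Q - xp R) < v (2 * (4 * A ^ 3 + 27 * B ^ 2 : ℤ)) ^ 2) :
    KerV v (Q - R) ∨ KerV v (Q - -R) := by
  rcases Q with _ | ⟨x₁, y₁, h₁⟩
  · exact absurd trivial a
  rcases R with _ | ⟨x₂, y₂, h₂⟩
  · exact absurd trivial b
  have a₁ : v x₁ ≤ 1 := not_not.1 a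
  have a₂ : v x₂ ≤ 1 := not_not.1 b
  change v (x₁ - x₂) < _ at h
  generalize hc : v (2 * (4 * A ^ 3 + 27 * B ^ 2 : ℤ)) = c at h
  have c1 : c ≤ 1 := hc ▸ val_mul_le_one (vn 2) (vi _)
  have hx : v (x₁ - x₂) < c := h.trans_le (by simpa using pow_le_pow_right_of_le_one' c1 one_le_two)
  have e : v (y₁ - y₂) * v (y₁ - -y₂) < c * c := by
    rw [← map_mul, show (y₁ - y₂) * (y₁ - -y₂) = (x₁ * x₁ + x₁ * x₂ + x₂ * x₂ + A) * (x₁ - x₂) by
      linear_combination eq' h₁ - eq' h₂, ← sq c]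
    exact (val_mul_le (v.map_add_le (v.map_add_le (v.map_add_le (val_mul_le_one a₁ a₁)
      (val_mul_le_one a₁ a₂)) (val_mul_le_one a₂ a₂)) (vi A)) le_rfl).trans_lt (by rwa [one_mul])
  by_cases k : v (y₁ - y₂) < c
  · exact .inl (Ix.near h₁ h₂ a₁ a₂ rfl (hc ▸ hx) (hc ▸ k))
  refine .inr (Ix.near h₁ _ a₁ a₂ rfl (hc ▸ hx) (hc ▸ ?_))
  rw [show (Cv Qb (A : ℚ) (B : ℚ)).negY x₂ y₂ = -y₂ by simp [negY]]
  exact not_le.1 fun j => e.not_ge (mul_le_mul' (not_lt.1 k) j)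

end val

variable {A B : ℤ} {l : ℕ} {P : Ideal (𝓞 Qb)} {n : ℕ} {x y : Pt A B}

/-- a multiple of a point which is rational up to sign is in the kernel of the reduction -/
theorem mul_k1 (hD : 4 * A ^ 3 + 27 * B ^ 2 ≠ 0) (h : Ov l P)
    (hy : ∀ g ∈ dec P, ga g y = y ∨ ga g y = -y) : ∃ N : ℕ, N ≠ 0 ∧ K1 P (N • y) := by
  obtain ⟨hl, hP, h2⟩ := h
  obtain ⟨O, hO⟩ := ex_O hP (ne_bot hl.ne_zero h2)
  obtain ⟨φ, hφ⟩ := exists_phi hl hP h2
  simp only [hO.k1]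
  by_contra! c
  obtain ⟨M, m, hm, e⟩ := WfDvdMonoid.max_power_factor (pow_ne_zero 2 (mul_ne_zero two_ne_zero hD))
    (Nat.prime_iff_prime_int.1 hl).irreducible
  have hM : O.valuation (2 * (4 * A ^ 3 + 27 * B ^ 2 : ℤ)) ^ 2 = O.valuation l ^ M := by
    have : O.valuation m = 1 := le_antisymm (vi m) (not_lt.1
      fun k => hm ((int_mem hP hl h2 m).1 ((hO.mem hP m).1 k)))
    rw [← map_pow, ← map_pow, ← mul_one (O.valuation (l ^ M)), ← this, ← map_mul]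
    exact congrArg _ (by exact_mod_cast e)
  obtain ⟨T, fT, hT⟩ := cls (v := O.valuation) (π := l)
    (R := {a | (∀ g ∈ dec P, g a = a) ∧ O.valuation a ≤ 1}) (Nat.cast_ne_zero.2 hl.ne_zero) hl.one_lt
    (fun a ha => by
      rw [Valuation.map_sub_swap, ← hO.zp]
      simpa only [ha.1 φ (phi_mem hl hP hφ)] using frob hP hφ ((hO.ip a).2 ha.2))
    (fun a ha b hb k => ⟨fun g hg => by rw [map_div₀, map_sub, ha.1 g hg, hb.1 g hg, map_natCast],
      (hO.ip _).1 (unv l P hl hP h2 _ (fun g hg => by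
        rw [map_sub, ha.1 g (inP_le_dec hg), hb.1 g (inP_le_dec hg)]) ((hO.zp _).2 k))⟩) M
  choose t t1 t2 using fun i : ℕ => hT (xp ((i + 1) • y)) ⟨fun g hg => by
    rw [← xp_ga, map_nsmul]
    rcases hy g hg with k | k <;> rw [k]
    rw [neg_nsmul, xp_neg], by
      have := c _ i.succ_ne_zero
      generalize (i + 1) • y = z at this
      rcases z with _ | ⟨a, b, k⟩
      · exact absurd trivial this
      · exact not_not.1 this⟩
  have key : ∀ i j, i < j → t i ≠ t j := fun i j ij k => by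
    obtain ⟨d, rfl⟩ := Nat.exists_eq_add_of_lt ij
    rcases near (c _ (i + d + 1).succ_ne_zero) (c _ i.succ_ne_zero) (by
      rw [hM, ← sub_sub_sub_cancel_right _ _ (t i)]
      exact O.valuation.map_sub_lt (k ▸ t2 _) (t2 i)) with r | r
    · refine c (d + 1) d.succ_ne_zero ?_
      rwa [show (i + d + 1).succ = d + 1 + i.succ by omega, add_smul, add_sub_cancel_right] at r
    · rw [sub_neg_eq_add, ← add_smul] at r
      exact c _ (by omega) r
  obtain ⟨i, j, ij, k⟩ := fT.exists_lt_map_eq_of_forall_mem t1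
  exact key i j ij k

theorem fx_or {ε : GQ → ℤ} (sq : ∀ g, ε g * ε g = 1) {g : GQ} (h : tw ε g y = y) :
    ga g y = y ∨ ga g y = -y := by
  rw [tw_apply] at h
  rcases mul_self_eq_one_iff.1 (sq g) with k | k <;> rw [k] at h
  · exact .inl ((one_smul ℤ _).symm.trans h)
  · exact .inr (neg_eq_iff_eq_neg.1 ((neg_one_smul ℤ _).symm.trans h))

/-- at an odd prime a multiple of every local point is infinitely divisible by two -/
theorem div_odd (hD : 4 * A ^ 3 + 27 * B ^ 2 ≠ 0) (h : Ov l P) (h2 : l ≠ 2) {ε : GQ → ℤ}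
    (sq : ∀ g, ε g * ε g = 1) (x : Pt A B) (a : x ∈ Fx (dec P) (tw ε)) :
    ∃ N : ℕ, N ≠ 0 ∧ ∀ m : ℕ, ∃ R ∈ Fx (dec P) (tw ε), N • x = 2 ^ m • R := by
  obtain ⟨N, N0, k⟩ := mul_k1 hD h fun g hg => fx_or sq (a g hg)
  obtain ⟨k0, ks, kg, kh, -⟩ := fg A B hD P h.2.1 (ne_bot h.1.ne_zero h.2.2)
  have n2 : (2 : 𝓞 Qb) ∉ P := fun j => h2 ((Nat.prime_dvd_prime_iff_eq h.1 Nat.prime_two).1
    (Int.natCast_dvd_natCast.1 ((int_mem h.2.1 h.1 h.2.2 (2 : ℕ)).1 (by simpa using j))))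
  refine ⟨N, N0, fun m => ?_⟩
  suffices s : ∃ R, K1 P R ∧ R ∈ Fx (dec P) (tw ε) ∧ N • x = 2 ^ m • R from s.imp fun _ r => r.2
  induction m with
  | zero => exact ⟨_, k, nsmul_mem a N, (one_smul _ _).symm⟩
  | succ m ih =>
    obtain ⟨R, r1, r2, r3⟩ := ih
    obtain ⟨w, w1, w2⟩ := kh n2 R r1
    refine ⟨w, w1.1, fun g hg => w2 _ ⟨?_, by rw [← map_nsmul, w1.2, r2 g hg]⟩, by
      rw [pow_succ, mul_smul, w1.2, r3]⟩
    rw [tw_apply]
    rcases mul_self_eq_one_iff.1 (sq g) with j | j <;> rw [j]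
    · exact (one_smul ℤ (ga g w)).symm ▸ kg g hg w w1.1
    · exact (neg_one_smul ℤ (ga g w)).symm ▸ zero_sub (ga g w) ▸ ks _ _ k0 (kg g hg w w1.1)

variable {M : Type} [AddCommGroup M] {ρ : GQ → M →+ M} {w : ℕ → M → M → K}

/-- **isotropy at infinity** -/
theorem Pr.iso_inf (H : Pr ρ w) (one : ∀ x, ρ 1 x = x) (v : InfinitePlace Qb) {x y : M}
    (a : 2 ^ n • x ∈ Fx (St (ip v)) ρ) (b : 2 ^ n • y ∈ Fx (St (ip v)) ρ) :
    B2 cy (St (ip v)) (cu ρ w n x y) := by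
  obtain ⟨c, hc⟩ := P022K.G2.ex_conj v.embedding
  have e := P022K.G2.st_conj hc
  rw [InfinitePlace.mk_embedding] at e
  have e' : ∀ g, g ∈ St (ip v) ↔ g = 1 ∨ g = c := Set.ext_iff.1 e
  have m := (e' c).2 (.inr rfl)
  have cc : c * c = 1 := ((e' _).1 (mul_mem m m)).elim id fun k => by
    rw [mul_left_cancel (k.trans (mul_one c).symm), mul_one]
  refine H.iso0 (fun z hz => ⟨2, two_ne_zero, fun j => ?_⟩) a b
  obtain ⟨z, rfl⟩ := H.dvp j z
  refine ⟨z + ρ c z, fun g hg => ?_, by rw [smul_add, ← map_nsmul, hz c m, two_nsmul]⟩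
  rcases (e' g).1 hg with rfl | rfl
  · exact one _
  · rw [map_add, ← H.mul, cc, one, add_comm]

end Vale.Agent.P014T.Ki
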