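import Vale.Agent.P014T.Ki.Odd
import Vale.Agent.P004T.Adm

/-!
# P014T, block KISO: isotropy of the Kummer images at all places (helper25)
-/

set_option linter.all false

open scoped Classical

noncomputable section

namespace Vale.Agent.P014T.Ki

open NumberField WeierstrassCurve.Affine Topology
open Vale.Agent.P022 (Qb GQ)
open Vale.Agent.P022K.G2 (St ip)
open Vale.Agent.P022D.W (dec exists_phi)
open Vale.Agent.P022E.GW (Ov Fb)
open Vale.Agent.P004S (nu)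
open Vale.Agent.P004S.Ga (K O Z2 B2)
open Vale.Agent.P004S.Aq (cy frob0)
open Vale.Agent.P004M.TE (Pt ga Cv ga_mul ga_one ev_ga ga_some nsg_cv)
open Vale.Agent.P004K (K1)
open Vale.Agent.P004F Qx Qx.Fg P179W

/-- a global class which is trivial at all places but two is trivial at two -/
def ONE2 : Prop := ∀ z, Z2 cy ⊤ z → ∀ P, Ov 2 P →
  (∀ p : ℕ, p.Prime → p ≠ 2 → ∃ Q, Ov p Q ∧ B2 cy (dec Q) z) → (∃ w, B2 cy (St (ip w)) z) →
  B2 cy (dec P) z

variable {A B : ℤ} {l : ℕ} {P : Ideal (𝓞 Qb)} {n : ℕ} {x y : Pt A B} {φ : GQ}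

theorem sd_mul (d : ℤ) (g h : GQ) : sd d (g * h) = sd d g * sd d h := by
  unfold sd
  rw [P004S.nu_mul]
  rcases P004S.z2 (nu d g) with a | a <;> rcases P004S.z2 (nu d h) with b | b <;> rw [a, b] <;> decide

theorem sd_sq (d : ℤ) (g : GQ) : sd d g * sd d g = 1 := by unfold sd; split <;> rfl

theorem tw_zero {d : ℤ} {g : GQ} (h : nu d g = 0) (x : Pt A B) : tw (sd d) g x = ga g x := by
  rw [tw_apply, sd, if_pos h, one_smul]

theorem fx_of (h : Ov l P) (hφ : Fb l P φ) (a : Ur P y) (b : ga φ y = y) : y ∈ Fx (dec P) ga :=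
  frob0 h hφ (H := { carrier := {g | ga g y = y}
                     mul_mem' := fun {g j} c d => by
                       rw [Set.mem_setOf_eq, ga_mul, show ga j y = y from d]; exact c
                     one_mem' := ga_one y
                     inv_mem' := fun {g} c => by
                       rw [Set.mem_setOf_eq, ← show ga g y = y from c, ← ga_mul, inv_mul_cancel,
                         ga_one, c] })
    (mem_nhdsWithin_of_mem_nhds ((ev_ga 1 y).mono fun g e => e.trans (ga_one y))) a b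

variable (hD : 4 * A ^ 3 + 27 * B ^ 2 ≠ 0)
include hD

theorem tf (h : Ov l P) (k : ℕ) {κ : ℕ} (k0 : κ ≠ 0) (k2 : 2 ∣ κ) (a : Fk P κ y)
    (b : 2 ^ k • y = 0) : y = 0 := by
  obtain ⟨-, -, -, -, -, fk⟩ := fg A B hD P h.2.1 (ne_bot h.1.ne_zero h.2.2)
  induction k generalizing κ y with
  | zero => rwa [pow_zero, one_smul] at b
  | succ k ih =>
    have := (((fk κ k0).2.2 k2 y).1 a)
    exact this.2 (ih (mul_ne_zero two_ne_zero k0) (dvd_mul_right 2 κ) this.1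
      (by rwa [← mul_smul, ← pow_succ]))

/-- the local points at two have rank one -/
theorem rk_one (h : Ov 2 P) : ∃ e : Pt A B, Fk P 2 e ∧ ∀ y ∈ Fx (dec P) ga, Fk P 2 y → ∀ k,
    ∃ (n : ℤ), ∃ w ∈ Fx (dec P) ga, y = n • e + 2 ^ (k + 1) • w ∧
      (¬ P004K.Zp P (zf y / 2) → Odd n) := by
  obtain ⟨φ, hφ⟩ := exists_phi h.1 h.2.1 h.2.2
  obtain ⟨O, hO⟩ := ex_O h.2.1 (ne_bot h.1.ne_zero h.2.2)
  obtain ⟨k0, -, -, -, -, fk⟩ := fg A B hD P h.2.1 (ne_bot h.1.ne_zero h.2.2)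
  obtain ⟨e, e1, -, e3, -, -, e4⟩ := fr A B hD P h.2.1 h.2.2 2 two_ne_zero dvd_rfl φ hφ 1 one_pos
  have m := P022D.W.phi_mem h.1 h.2.1 hφ
  rw [pow_one] at e3 e4
  refine ⟨e, e1, fun y a b k => ?_⟩
  obtain ⟨c, w, w1, w2, w3, w4⟩ := e4 (k + 1) y 0 b (fun g hg => a g (P022D.W.inP_le_dec hg))
    ⟨k0, (hO.ip _).2 (by simp [zf])⟩ (by rw [a φ m, sub_self, nsmul_zero])
  rw [Finset.sum_range_one, pow_zero, ga_one] at w3
  refine ⟨c 0, w, fx_of h hφ w2 (sub_eq_zero.1 (tf hD h (k + 1) two_ne_zero dvd_rfl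
    ((fk 2 two_ne_zero).1 _ _ (Dc.fk m w1) w1).1 ?_)), w3, fun j => ?_⟩
  · rw [nsmul_sub, ← map_nsmul, ← sub_eq_iff_eq_add'.2 w3, map_sub, map_zsmul, a φ m, e3, sub_self]
  · refine Int.not_even_iff_odd.1 fun ⟨r, hr⟩ => j ((hO.zp _).2 ?_)
    have := (hO.zp _).1 (w4 k.succ_pos)
    rw [Finset.sum_range_one, pow_zero, AlgEquiv.one_apply, hr, ← two_mul, Int.cast_mul,
      mul_assoc] at this
    rw [← sub_add_cancel (zf y / 2) _]
    refine O.valuation.map_add_lt this ?_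
    rw [map_mul]
    exact mul_lt_one_of_lt_of_le ((hO.mem h.2.1 (2 : ℤ)).2 (by simpa using h.2.2))
      (val_mul_le_one (vi r) ((hO.ip _).1 e1.2))

/-- a point of a twist which is split at two, with a parameter of valuation one -/
theorem ex_pt (h : Ov 2 P) : ∃ p : Pt A B, p ∈ Fx ⊤ (tw (sd (1 + 16 * A + 64 * B))) ∧ Fk P 2 p ∧
    ¬ P004K.Zp P (zf p / 2) := by
  obtain ⟨O, hO⟩ := ex_O h.2.1 (ne_bot h.1.ne_zero h.2.2)
  obtain ⟨s, hs⟩ := P004S.ex_sqrt (1 + 16 * A + 64 * B)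
  have v2 : O.valuation 2 < 1 := (hO.mem h.2.1 (2 : ℕ)).2 h.2.2
  have vs : O.valuation s = 1 := by
    rw [← pow_eq_one_iff_of_nonneg zero_le' two_ne_zero, ← map_pow, hs]
    exact le_antisymm (vi _) (not_lt.1 fun k => by
      have := (int_mem h.2.1 h.1 h.2.2 _).1 ((hO.mem h.2.1 (1 + 16 * A + 64 * B : ℤ)).1 k)
      omega)
  have s0 : s ≠ 0 := fun k => by simp [k] at vs
  have ns : (Cv Qb (A : ℚ) (B : ℚ)).Nonsingular (1 / 4) (s / 8) := nsg_cv two_ne_zero (hq hD) (by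
    rw [eA, eA]
    push_cast at hs
    linear_combination hs / 64)
  have e : O.valuation (zf (.some _ _ ns : Pt A B) / 2) = 1 := by
    rw [show zf (.some _ _ ns : Pt A B) / 2 = -s⁻¹ by simp only [zf]; field_simp; norm_num,
      Valuation.map_neg, map_inv₀, vs, inv_one]
  refine ⟨.some _ _ ns, fun g _ => ?_, ⟨(hO.k1 _).2 fun k => ?_, (hO.ip _).2 e.le⟩,
    fun k => ((hO.zp _).1 k).ne e⟩
  · rw [tw_apply, ga_some, sd]
    rcases P004S.z2 (nu (1 + 16 * A + 64 * B) g) with k | k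
    · rw [if_pos k, one_smul]
      simp [(P004S.nu_eq_zero hs).1 k, map_ofNat]
    · rw [if_neg (k ▸ one_ne_zero), neg_one_smul, Point.neg_some]
      simp [(P004S.nu_eq_one (by omega) hs).1 k, map_ofNat, negY, neg_div]
  · have := mul_lt_one_of_lt_of_le v2 (mul_le_one' v2.le k)
    rw [← map_mul, ← map_mul] at this
    norm_num at this

theorem pr_sd (d : ℤ) : Pr (tw (sd d)) (wp (hq hD)) :=
  pr_of _ _ (sd_mul d) (sd_sq d) ((P004S.nu_lc d).comp fun a => if a = 0 then 1 else -1)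

/-- **isotropy at the odd primes** -/
theorem iso_odd (h : Ov l P) (h2 : l ≠ 2) (a : 2 ^ n • x ∈ Fx (dec P) ga)
    (b : 2 ^ n • y ∈ Fx (dec P) ga) : B2 cy (dec P) (cu ga (wp (hq hD)) n x y) :=
  (pr _).iso0 (tw_one (A := A) (B := B) ▸ div_odd hD h h2 fun _ => rfl) a b

/-- **isotropy at infinity** -/
theorem iso_inf (v : InfinitePlace Qb) (a : 2 ^ n • x ∈ Fx (St (ip v)) ga)
    (b : 2 ^ n • y ∈ Fx (St (ip v)) ga) : B2 cy (St (ip v)) (cu ga (wp (hq hD)) n x y) :=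
  (pr _).iso_inf ga_one v a b

/-- **isotropy at two** -/
theorem iso_two (H : ONE2) (h : Ov 2 P) (a : 2 ^ n • x ∈ Fx (dec P) ga)
    (b : 2 ^ n • y ∈ Fx (dec P) ga) : B2 cy (dec P) (cu ga (wp (hq hD)) n x y) := by
  obtain ⟨p, p1, p2, p3⟩ := ex_pt hD h
  have t : ∀ g ∈ dec P, ∀ x : Pt A B, tw (sd (1 + 16 * A + 64 * B)) g x = ga g x := fun g hg =>
    tw_zero (P004T.nu_two h (by omega) hg)
  have hp : p ∈ Fx (dec P) ga := fun g hg => (t g hg p).symm.trans (p1 g trivial)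
  refine (pr _).iso hp (fun m q e => ?_) (fun z hz => ?_) a b
  · subst e
    have R := pr_sd hD (1 + 16 * A + 64 * B)
    refine Rc.b2_congr (H _ (R.z2 p1 p1) P h (fun l hl l2 => ?_) ⟨_, R.iso_inf
      (fun x => (tw_zero (P004S.nu_one _) x).trans (ga_one x))
      (.mk (IsAlgClosed.lift : Qb →ₐ[ℚ] ℂ).toRingHom) (fun g _ => p1 g trivial)
      fun g _ => p1 g trivial⟩) fun g hg j hj => ?_
    · have := Fact.mk hl
      have o : Ov l _ := ⟨hl, P022D.Loc2.PP_prime l, P022D.Loc2.p_mem_PP l⟩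
      exact ⟨_, o, R.iso0 (div_odd hD o l2 (sd_sq _)) (fun g _ => p1 g trivial)
        fun g _ => p1 g trivial⟩
    · rw [cu, cu, t g hg, t g hg, t j hj, sub_self]
      exact zero_mem _
  obtain ⟨φ, hφ⟩ := exists_phi h.1 h.2.1 h.2.2
  obtain ⟨N, N0, k⟩ := Ix.idx A B hD P φ h hφ 2 1 two_ne_zero one_ne_zero
  obtain ⟨c, u, hu, rfl⟩ := Nat.exists_eq_two_pow_mul_odd N0
  obtain ⟨e, -, r⟩ := rk_one hD h
  refine ⟨c, fun m => ?_⟩
  obtain ⟨i, w, w1, w2, -⟩ := r _ (nsmul_mem hz _) (k z (fun g hg => hz g (P022D.W.inP_le_dec hg))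
    (hz _ (pow_mem (P022D.W.phi_mem h.1 h.2.1 hφ) 1))) m
  obtain ⟨j, v, v1, v2, v3⟩ := r p hp p2 m
  refine ⟨j.natAbs * j.natAbs * u, j * i, 2 • ((j * j) • w - (j * i) • v),
    nsmul_mem (sub_mem (zsmul_mem w1 _) (zsmul_mem v1 _)) 2,
    ((Int.natAbs_odd.2 (v3 p3)).mul (Int.natAbs_odd.2 (v3 p3))).mul hu, ?_⟩
  rw [mul_smul, ← mul_smul u, mul_comm u, w2, v2, ← natCast_zsmul, Int.natAbs_mul_self]
  module

/-- **isotropy of the Kummer images at every prime** -/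
theorem iso_fin (H : ONE2) (h : Ov l P) (a : 2 ^ n • x ∈ Fx (dec P) ga)
    (b : 2 ^ n • y ∈ Fx (dec P) ga) : B2 cy (dec P) (cu ga (wp (hq hD)) n x y) := by
  by_cases h2 : l = 2
  · exact iso_two hD H (h2 ▸ h) a b
  · exact iso_odd hD h h2 a b

end Vale.Agent.P014T.Ki
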