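import Vale.Agent.P004F.Rec.Cor

/-!
# P014T, block KISO: the calculus of cup products of Kummer cocycles (helper25)
-/

set_option linter.all false

noncomputable section

namespace Vale.Agent.P014T.Ki

open Vale.Agent.P022
open Vale.Agent.P004S.Ga (K O d2 d3 Z2 B2)
open Vale.Agent.P004S.Aq
open Vale.Agent.P004F.Rc (mq mq_eq mq_zero b2_add b2_neg b2_congr b2_zero)

variable {M : Type} [AddCommGroup M]

/-- an action with skew pairings on the elements of order `2 ^ n` -/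
structure Pr (ρ : GQ → M →+ M) (w : ℕ → M → M → K) : Prop where
  mul : ∀ g h x, ρ (g * h) x = ρ g (ρ h x)
  lc : ∀ x, IsLocallyConstant fun g => ρ g x
  dv : ∀ y : M, ∃ z, 2 • z = y
  addl : ∀ {n x x' y}, 2 ^ n • x = 0 → 2 ^ n • x' = 0 → 2 ^ n • y = 0 →
    mq (w n (x + x') y) = mq (w n x y) + mq (w n x' y)
  skew : ∀ {n x y}, 2 ^ n • x = 0 → 2 ^ n • y = 0 → mq (w n x y) = -mq (w n y x)
  act : ∀ {n x y} g, 2 ^ n • x = 0 → 2 ^ n • y = 0 → mq (cy g * w n x y) = mq (w n (ρ g x) (ρ g y))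
  lev : ∀ {n x y}, 2 ^ n • x = 0 → 2 ^ (n + 1) • y = 0 → mq (w n x (2 • y)) = mq (w (n + 1) x y)

/-- the cup product of the Kummer cocycles of `2 ^ n • x` and `2 ^ n • y` -/
def cu (ρ : GQ → M →+ M) (w : ℕ → M → M → K) (n : ℕ) (x y : M) (g h : GQ) : K :=
  w n (ρ g x - x) (ρ g (ρ h y - y))

/-- fixed elements -/
def Fx (D : Subgroup GQ) (ρ : GQ → M →+ M) : AddSubgroup M where
  carrier := {x | ∀ g ∈ D, ρ g x = x}
  add_mem' a b g m := by rw [map_add, a g m, b g m]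
  zero_mem' g _ := map_zero _
  neg_mem' a g m := by rw [map_neg, a g m]

variable {ρ : GQ → M →+ M} {w : ℕ → M → M → K} {D : Subgroup GQ} {n : ℕ} {x x' y y' : M} {g : GQ}

theorem tor (h : 2 ^ n • x ∈ Fx D ρ) (m : g ∈ D) : 2 ^ n • (ρ g x - x) = 0 := by
  rw [smul_sub, ← map_nsmul, h g m, sub_self]

theorem tor_map (h : 2 ^ n • x = 0) (g : GQ) : 2 ^ n • ρ g x = 0 := by
  rw [← map_nsmul, h, map_zero]

theorem tor_neg (h : 2 ^ n • x = 0) : 2 ^ n • -x = 0 := by rw [smul_neg, h, neg_zero]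

theorem tor_add (h : 2 ^ n • x = 0) (h' : 2 ^ n • y = 0) : 2 ^ n • (x + y) = 0 := by
  rw [smul_add, h, h', add_zero]

theorem tor_up (h : 2 ^ n • x = 0) (c : ℕ) : 2 ^ (n + c) • x = 0 := by
  rw [pow_add, mul_comm, mul_smul, h, smul_zero]

theorem fx_up (h : 2 ^ n • x ∈ Fx D ρ) (c : ℕ) : 2 ^ (n + c) • x ∈ Fx D ρ := by
  rw [pow_add, mul_comm, mul_smul]
  exact nsmul_mem h _

theorem mem_of (S : AddSubgroup M) (h1 : Fx D ρ ≤ S) (h2 : ∀ t : M, 2 ^ n • t = 0 → t ∈ S)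
    (hx : 2 ^ n • x ∈ Fx D ρ) {u : ℕ} (hu : Odd u) {s : ℤ} {p R : M} (hp : p ∈ S) (hR : R ∈ Fx D ρ)
    (e : u • 2 ^ n • x = s • 2 ^ n • p + 2 ^ n • R) : x ∈ S := by
  obtain ⟨a, b, k⟩ := Nat.isCoprime_iff_coprime.2 (hu.coprime_two_right.pow_right n)
  have m : u • x ∈ S := by
    rw [← sub_add_cancel (u • x) (s • p + R)]
    exact add_mem (h2 _ (by rw [smul_sub, smul_add, smul_comm, e, smul_comm s, sub_self]))
      (add_mem (zsmul_mem hp s) (h1 hR))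
  rw [← one_smul ℤ x, ← k, add_smul, mul_smul, mul_smul, natCast_zsmul, natCast_zsmul]
  exact add_mem (zsmul_mem m a) (zsmul_mem (h1 hx) b)

namespace Pr

variable (H : Pr ρ w)
include H

theorem dvp (c : ℕ) (y : M) : ∃ z, 2 ^ c • z = y := by
  induction c generalizing y with
  | zero => exact ⟨y, one_smul _ _⟩
  | succ c ih =>
    obtain ⟨z, rfl⟩ := ih y
    obtain ⟨t, rfl⟩ := H.dv z
    exact ⟨t, by rw [pow_succ, mul_smul]⟩

theorem co (g h : GQ) (x : M) : ρ (g * h) x - x = ρ g x - x + ρ g (ρ h x - x) := by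
  rw [H.mul, map_sub]; abel

theorem addr (a : 2 ^ n • x = 0) (b : 2 ^ n • y = 0) (c : 2 ^ n • y' = 0) :
    mq (w n x (y + y')) = mq (w n x y) + mq (w n x y') := by
  rw [H.skew a (tor_add b c), H.addl b c a, H.skew a b, H.skew a c, neg_add]

theorem zl (b : 2 ^ n • y = 0) : mq (w n 0 y) = 0 := by
  simpa using H.addl (smul_zero _) (smul_zero _) b

theorem zr (b : 2 ^ n • y = 0) : mq (w n y 0) = 0 := by
  rw [H.skew b (smul_zero _), H.zl b, neg_zero]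

theorem negl (a : 2 ^ n • x = 0) (b : 2 ^ n • y = 0) : mq (w n (-x) y) = -mq (w n x y) := by
  rw [eq_neg_iff_add_eq_zero, ← H.addl (tor_neg a) a b, neg_add_cancel, H.zl b]

theorem negr (a : 2 ^ n • x = 0) (b : 2 ^ n • y = 0) : mq (w n x (-y)) = -mq (w n x y) := by
  rw [eq_neg_iff_add_eq_zero, ← H.addr a (tor_neg b) b, neg_add_cancel, H.zr a]

theorem levl (a : 2 ^ (n + 1) • x = 0) (b : 2 ^ n • y = 0) :
    mq (w n (2 • x) y) = mq (w (n + 1) x y) := by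
  rw [H.skew (by rwa [← mul_smul, ← pow_succ]) b, H.lev b a, H.skew a (tor_up b 1)]

theorem cont (F : M → M → K) (x y : M) : Continuous fun g => F (ρ g x) (ρ g y) :=
  (((H.lc x).prodMk (H.lc y)).comp fun z => F z.1 z.2).continuous

theorem z2 (a : 2 ^ n • x ∈ Fx D ρ) (b : 2 ^ n • y ∈ Fx D ρ) : Z2 cy D (cu ρ w n x y) := by
  refine ⟨Continuous.continuousOn ?_, fun g hg h hh k hk => mq_zero.1 ?_⟩
  · simp only [cu, map_sub, ← H.mul]
    exact (((((H.lc x).prodMk (H.lc y)).comp_continuous continuous_fst).prodMk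
      ((H.lc y).comp_continuous continuous_mul)).comp fun z => w n (z.1.1 - x) (z.2 - z.1.2)).continuous
  · simp only [d3, cu, map_add mq, map_sub mq]
    rw [H.act g (tor a hh) (tor_map (tor b hk) h), H.co g h x, H.co h k y, map_add (ρ g), H.mul,
      H.addl (tor a hg) (tor_map (tor a hh) g) (tor_map (tor_map (tor b hk) h) g),
      H.addr (tor a hg) (tor_map (tor b hh) g) (tor_map (tor_map (tor b hk) h) g)]
    abel

/-- the left kernel -/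
def Lf (b : 2 ^ n • y ∈ Fx D ρ) : AddSubgroup M where
  carrier := {x | 2 ^ n • x ∈ Fx D ρ ∧ B2 cy D (cu ρ w n x y)}
  add_mem' {x x'} a a' := ⟨(smul_add (2 ^ n) x x').symm ▸ add_mem a.1 a'.1,
    b2_congr (b2_add a.2 a'.2) fun g hg h hh => mq_eq.1 (by
      rw [map_add mq, cu, cu, cu, ← H.addl (tor a.1 hg) (tor a'.1 hg) (tor_map (tor b hh) g),
        map_add, add_sub_add_comm])⟩
  zero_mem' := ⟨nsmul_mem (zero_mem _) _, b2_zero fun g hg h hh => mq_zero.1 (by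
    rw [cu, map_zero, sub_self, H.zl (tor_map (tor b hh) g)])⟩
  neg_mem' {x} a := ⟨(smul_neg (2 ^ n) x).symm ▸ neg_mem a.1, b2_congr (b2_neg a.2) fun g hg h hh =>
    mq_eq.1 (by rw [map_neg mq, cu, cu, ← H.negl (tor a.1 hg) (tor_map (tor b hh) g), map_neg,
      neg_sub_neg, neg_sub])⟩

/-- the right kernel -/
def Rt (a : 2 ^ n • x ∈ Fx D ρ) : AddSubgroup M where
  carrier := {y | 2 ^ n • y ∈ Fx D ρ ∧ B2 cy D (cu ρ w n x y)}
  add_mem' {y y'} b b' := ⟨(smul_add (2 ^ n) y y').symm ▸ add_mem b.1 b'.1,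
    b2_congr (b2_add b.2 b'.2) fun g hg h hh => mq_eq.1 (by
      rw [map_add mq, cu, cu, cu, ← H.addr (tor a hg) (tor_map (tor b.1 hh) g)
        (tor_map (tor b'.1 hh) g), map_add (ρ h), add_sub_add_comm, map_add])⟩
  zero_mem' := ⟨nsmul_mem (zero_mem _) _, b2_zero fun g hg h hh => mq_zero.1 (by
    rw [cu, map_zero, sub_self, map_zero, H.zr (tor a hg)])⟩
  neg_mem' {y} b := ⟨(smul_neg (2 ^ n) y).symm ▸ neg_mem b.1, b2_congr (b2_neg b.2) fun g hg h hh =>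
    mq_eq.1 (by rw [map_neg mq, cu, cu, ← H.negr (tor a hg) (tor_map (tor b.1 hh) g), ← map_neg,
      map_neg (ρ h), neg_sub_neg, neg_sub])⟩

theorem fx_Lf (b : 2 ^ n • y ∈ Fx D ρ) : Fx D ρ ≤ H.Lf b := fun x a =>
  ⟨nsmul_mem a _, b2_zero fun g hg h hh => mq_zero.1 (by
    rw [cu, a g hg, sub_self, H.zl (tor_map (tor b hh) g)])⟩

theorem fx_Rt (a : 2 ^ n • x ∈ Fx D ρ) : Fx D ρ ≤ H.Rt a := fun y b =>
  ⟨nsmul_mem b _, b2_zero fun g hg h hh => mq_zero.1 (by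
    rw [cu, b h hh, sub_self, map_zero, H.zr (tor a hg)])⟩

theorem tor_Lf (b : 2 ^ n • y ∈ Fx D ρ) (t : M) (a : 2 ^ n • t = 0) : t ∈ H.Lf b := by
  refine ⟨a ▸ zero_mem _, fun h => w n t (ρ h y - y),
    (H.cont (fun _ z => w n t (z - y)) y y).continuousOn, fun g hg h hh => mq_eq.1 ?_⟩
  simp only [d2, cu, map_add mq, map_sub mq]
  rw [H.act g a (tor b hh), H.co g h y, H.addr a (tor b hg) (tor_map (tor b hh) g),
    sub_eq_add_neg (ρ g t), H.addl (tor_map a g) (tor_neg a) (tor_map (tor b hh) g),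
    H.negl a (tor_map (tor b hh) g)]
  abel

theorem tor_Rt (a : 2 ^ n • x ∈ Fx D ρ) (t : M) (b : 2 ^ n • t = 0) : t ∈ H.Rt a := by
  refine ⟨b ▸ zero_mem _, fun h => -w n (ρ h x - x) (ρ h t),
    (H.cont (fun z t => -w n (z - x) t) x t).continuousOn, fun g hg h hh => mq_eq.1 ?_⟩
  simp only [d2, cu, map_add mq, map_sub mq, mul_neg, map_neg mq]
  rw [H.act g (tor a hh) (tor_map b h), H.co g h x, H.mul g h t,
    H.addl (tor a hg) (tor_map (tor a hh) g) (tor_map (tor_map b h) g), map_sub (ρ g) _ t,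
    sub_eq_add_neg (ρ g (ρ h t)), H.addr (tor a hg) (tor_map (tor_map b h) g) (tor_neg (tor_map b g)),
    H.negr (tor a hg) (tor_map b g)]
  abel

theorem lev_r (c : ℕ) (a : 2 ^ n • x ∈ Fx D ρ) (b : 2 ^ (n + c) • y ∈ Fx D ρ)
    (h : B2 cy D (cu ρ w (n + c) x y)) : B2 cy D (cu ρ w n x (2 ^ c • y)) := by
  induction c generalizing y with
  | zero => simpa using h
  | succ c ih =>
    rw [pow_succ, mul_smul]
    refine ih (by rwa [← mul_smul, ← pow_succ]) (b2_congr h fun g hg j hj => mq_eq.1 ?_)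
    rw [cu, cu, map_nsmul, ← smul_sub, map_nsmul]
    exact H.lev (tor (fx_up a c) hg) (tor_map (tor b hj) g)

theorem lev_l (c : ℕ) (a : 2 ^ (n + c) • x ∈ Fx D ρ) (b : 2 ^ n • y ∈ Fx D ρ)
    (h : B2 cy D (cu ρ w (n + c) x y)) : B2 cy D (cu ρ w n (2 ^ c • x) y) := by
  induction c generalizing x with
  | zero => simpa using h
  | succ c ih =>
    rw [pow_succ, mul_smul]
    refine ih (by rwa [← mul_smul, ← pow_succ]) (b2_congr h fun g hg j hj => mq_eq.1 ?_)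
    rw [cu, cu, map_nsmul, ← smul_sub]
    exact H.levl (tor a hg) (tor_map (tor (fx_up b c) hj) g)

/-- **isotropy** when the fixed elements have rank at most one -/
theorem iso {p : M} (hp : p ∈ Fx D ρ) (h0 : ∀ m p', 2 ^ m • p' = p → B2 cy D (cu ρ w m p' p'))
    (h : ∀ x ∈ Fx D ρ, ∃ c : ℕ, ∀ m : ℕ, ∃ (u : ℕ) (s : ℤ), ∃ R ∈ Fx D ρ, Odd u ∧
      u • 2 ^ c • x = s • p + 2 ^ m • R)
    (a : 2 ^ n • x ∈ Fx D ρ) (b : 2 ^ n • y ∈ Fx D ρ) : B2 cy D (cu ρ w n x y) := by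
  obtain ⟨c, h1⟩ := h _ a
  obtain ⟨d, h2⟩ := h _ b
  obtain ⟨u, s, R, r1, r2, r3⟩ := h1 (n + c)
  obtain ⟨u', s', R', k1, k2, k3⟩ := h2 (n + c + d)
  obtain ⟨y, rfl⟩ := H.dvp c y
  obtain ⟨p, rfl⟩ := H.dvp (n + c + d) p
  rw [← mul_smul, ← pow_add] at b
  have e : 2 ^ (n + c) • 2 ^ d • p = 2 ^ (n + c + d) • p := by rw [← mul_smul, ← pow_add]
  refine H.lev_r c a b (mem_of (H.Lf b) (H.fx_Lf b) (H.tor_Lf b) (fx_up a c) r2 (s := s)
    (p := 2 ^ d • p) ⟨e ▸ hp, H.lev_l d hp b (mem_of (H.Rt hp) (H.fx_Rt hp) (H.tor_Rt hp)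
      (fx_up b d) k2 (s := s') ⟨hp, h0 _ p rfl⟩ k1 ?_).2⟩ r1 ?_).2
  · rw [← k3, ← mul_smul (2 ^ n), ← mul_smul (2 ^ d), ← pow_add, ← pow_add, add_comm d]
  · rw [e, ← r3, ← mul_smul (2 ^ c), ← pow_add, add_comm c]

/-- **isotropy** when a multiple of every fixed element is infinitely divisible -/
theorem iso0 (h : ∀ x ∈ Fx D ρ, ∃ N : ℕ, N ≠ 0 ∧ ∀ m : ℕ, ∃ R ∈ Fx D ρ, N • x = 2 ^ m • R)
    (a : 2 ^ n • x ∈ Fx D ρ) (b : 2 ^ n • y ∈ Fx D ρ) : B2 cy D (cu ρ w n x y) := by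
  refine H.iso (zero_mem _) (fun m p e => (H.tor_Lf (e ▸ zero_mem _) p e).2) (fun x m => ?_) a b
  obtain ⟨N, N0, k⟩ := h x m
  obtain ⟨c, u, hu, rfl⟩ := Nat.exists_eq_two_pow_mul_odd N0
  exact ⟨c, fun m => (k m).elim fun R r => ⟨u, 0, R, r.1, hu, by
    rw [zero_smul, zero_add, ← r.2, mul_comm, mul_smul]⟩⟩

end Pr

end Vale.Agent.P014T.Ki
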