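import Vale.Agent.P014T.Ki.Tor
import Vale.Agent.P014T.Iv.Inv

/-!
# P014T, block KISO: isotropy of the Kummer images, unconditional
-/

set_option linter.all false

open scoped Classical

noncomputable section

namespace Vale.Agent.P014T.Ki

open NumberField
open Vale.Agent.P022 (Qb GQ)
open Vale.Agent.P022D.W (dec)
open Vale.Agent.P022E.GW (Ov)
open Vale.Agent.P004S.Ga (B2)
open Vale.Agent.P004S.Aq (cy)
open Vale.Agent.P004M.TE (Pt ga)
open Vale.Agent.P004F (hq)

theorem one2 : ONE2 := fun z hz P o h1 h0 =>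
  (Iv.iv_iff o (P004F.Rc.z2_mono hz le_top)).1 (by
    simpa using Iv.rec hz {2} (fun _ => P) (by simpa using o) (by simpa using h1) h0)

/-- **isotropy of the Kummer images at every prime** -/
theorem iso {A B : ℤ} (hD : 4 * A ^ 3 + 27 * B ^ 2 ≠ 0) {l : ℕ} {P : Ideal (𝓞 Qb)} (h : Ov l P)
    {n : ℕ} {x y : Pt A B} (a : 2 ^ n • x ∈ Fx (dec P) ga) (b : 2 ^ n • y ∈ Fx (dec P) ga) :
    B2 cy (dec P) (cu ga (wp (hq hD)) n x y) := iso_fin hD one2 h a b

end Vale.Agent.P014T.Ki
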