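import Vale.Agent.P014T.Ki.Two

/-!
# P014T, block KISO: a rational point of infinite order generates the local points at two
-/

set_option linter.all false

open scoped Classical

noncomputable section

namespace Vale.Agent.P014T.Ki

open NumberField
open Vale.Agent.P022 (Qb GQ)
open Vale.Agent.P022D.W (dec exists_phi phi_mem inP_le_dec)
open Vale.Agent.P022E.GW (Ov)
open Vale.Agent.P004M.TE (Pt ga ga_one)
open Vale.Agent.P004F Qx Qx.Fg P179W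

variable {A B : ℤ} (hD : 4 * A ^ 3 + 27 * B ^ 2 ≠ 0) {P : Ideal (𝓞 Qb)} (h : Ov 2 P)
include hD h

theorem rk2 : ∃ e : Pt A B, e ∈ Fx (dec P) ga ∧ Fk P 2 e ∧ ∃ N : ℕ, N ≠ 0 ∧
    ∀ y : Pt A B, y ∈ Fx (dec P) ga → ∀ k : ℕ, ∃ (n : ℤ) (w : Pt A B), w ∈ Fx (dec P) ga ∧
      Fk P 2 w ∧ N • y = n • e + 2 ^ k • w := by
  obtain ⟨φ, hφ⟩ := exists_phi h.1 h.2.1 h.2.2
  obtain ⟨O, hO⟩ := ex_O h.2.1 (ne_bot h.1.ne_zero h.2.2)
  obtain ⟨k0, -, -, -, -, fk⟩ := fg A B hD P h.2.1 (ne_bot h.1.ne_zero h.2.2)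
  obtain ⟨e, e1, e2, e3, -, -, e4⟩ := fr A B hD P h.2.1 h.2.2 2 two_ne_zero dvd_rfl φ hφ 1 one_pos
  obtain ⟨N, N0, i⟩ := Ix.idx A B hD P φ h hφ 2 1 two_ne_zero one_ne_zero
  have m := phi_mem h.1 h.2.1 hφ
  rw [pow_one] at e3 e4 i
  refine ⟨e, fx_of h hφ e2 e3, e1, N, N0, fun y a k => ?_⟩
  have a' := nsmul_mem a N
  obtain ⟨c, w, w1, w2, w3, -⟩ := e4 k (N • y) 0 (i y (fun g hg => a g (inP_le_dec hg)) (a φ m))
    (fun g hg => a' g (inP_le_dec hg)) ⟨k0, (hO.ip _).2 (by simp [zf])⟩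
    (by rw [a' φ m, sub_self, nsmul_zero])
  rw [Finset.sum_range_one, pow_zero, ga_one] at w3
  refine ⟨c 0, w, fx_of h hφ w2 (sub_eq_zero.1 (tf hD h k two_ne_zero dvd_rfl
    ((fk 2 two_ne_zero).1 _ _ (Dc.fk m w1) w1).1 ?_)), w1, w3⟩
  rw [nsmul_sub, ← map_nsmul, ← sub_eq_iff_eq_add'.2 w3, map_sub, map_zsmul, a' φ m, e3, sub_self]

/-- a rational point which is infinitely divisible in the formal group vanishes -/
theorem sep2 {y : Pt A B} (a : y ∈ Fx ⊤ ga) (b : ∀ m : ℕ, ∃ w, Fk P 2 w ∧ y = 2 ^ m • w) :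
    y = 0 := by
  obtain ⟨O, hO⟩ := ex_O h.2.1 (ne_bot h.1.ne_zero h.2.2)
  obtain ⟨-, -, -, -, -, fk⟩ := fg A B hD P h.2.1 (ne_bot h.1.ne_zero h.2.2)
  have k3 : ∀ i : ℕ, Fk P (2 ^ (i + 1)) y := fun i => by
    obtain ⟨w, w1, e⟩ := b i
    rw [e]
    clear e
    induction i with
    | zero => simpa using w1
    | succ i ih =>
      rw [pow_succ' 2 (i + 1), show 2 ^ (i + 1) • w = 2 • 2 ^ i • w by rw [pow_succ', mul_smul]]
      exact (((fk _ (by positivity)).2.2 (dvd_pow_self 2 i.succ_ne_zero) _).1 ih).1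
  have v2 : O.valuation 2 < 1 := (hO.mem h.2.1 (2 : ℕ)).2 h.2.2
  have := P022.H443.galQb
  obtain ⟨q, hq⟩ := (InfiniteGalois.mem_range_algebraMap_iff_fixed (k := ℚ) (zf y)).2 fun g => by
    rw [← zf_ga, a g trivial]
  by_cases q0 : q = 0
  · exact inj ((hO.k1 _).1 (k3 0).1) trivial (by rw [← hq, q0, map_zero]; rfl)
  obtain ⟨M, hM⟩ := Ix.two_le v2 (fun m hm => le_antisymm (vi m) (not_lt.1
    fun k => hm ((int_mem h.2.1 Nat.prime_two h.2.2 m).1 ((hO.mem h.2.1 m).1 k))))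
    (Rat.num_ne_zero.2 q0)
  have k := ((hO.fk (by positivity) _).1 (k3 M)).2
  have e : (q.num : Qb) = q.den * zf y := by
    rw [← hq, ← map_natCast (algebraMap ℚ Qb), ← map_mul, Rat.den_mul_eq_num, map_intCast]
  rw [e] at hM
  have := hM.trans (val_mul_le (vn q.den) k)
  rw [one_mul, Nat.cast_pow, map_pow, Nat.cast_ofNat] at this
  exact absurd (pow_lt_pow_right_of_lt_one₀ (zero_lt_iff.2 (by simp)) v2 M.lt_succ_self) this.not_gt

/-- every local point is, up to an odd factor and a multiple of `2 ^ k`, a division point of a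
given rational point of infinite order -/
theorem gen2 {y x : Pt A B} (a : y ∈ Fx ⊤ ga) (ny : ¬ IsOfFinAddOrder y) (b : x ∈ Fx (dec P) ga)
    (k : ℕ) : ∃ (u : ℤ) (R : Pt A B) (j : ℕ), Odd u ∧ R ∈ Fx (dec P) ga ∧
      2 ^ j • (u • x - 2 ^ k • R) ∈ Fx ⊤ ga := by
  obtain ⟨e, -, e2, N, N0, r⟩ := rk2 hD h
  obtain ⟨-, -, -, -, -, fk⟩ := fg A B hD P h.2.1 (ne_bot h.1.ne_zero h.2.2)
  let G : AddSubgroup (Pt A B) := .ofSub {y | Fk P 2 y} ⟨e, e2⟩ fun x a y b =>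
    sub_eq_add_neg x y ▸ ((fk 2 two_ne_zero).1 x y a b).1
  obtain ⟨m, hm⟩ := not_forall.1 fun s => ny (isOfFinAddOrder_iff_nsmul_eq_zero.2
    ⟨N, Nat.pos_of_ne_zero N0, sep2 hD h (nsmul_mem a N) s⟩)
  obtain ⟨c, u, hu, e0⟩ := Nat.exists_eq_two_pow_mul_odd N0
  obtain ⟨i, w, w1, w2, w3⟩ := r y (fun g _ => a g trivial) (m + (c + k))
  obtain ⟨j, v, v1, -, v3⟩ := r x b (m + (c + k))
  have nd : ¬ (2 : ℤ) ^ m ∣ i := fun ⟨t, ht⟩ => hm ⟨t • e + 2 ^ (c + k) • w,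
    G.add_mem (G.zsmul_mem e2 t) (G.nsmul_mem w2 _), by rw [w3, ht]; module⟩
  obtain ⟨s, i', o, rfl⟩ := WfDvdMonoid.max_power_factor (fun k : i = 0 => nd (k ▸ dvd_zero _))
    Int.prime_two.irreducible
  obtain ⟨d, rfl⟩ := Nat.exists_eq_add_of_le (n := m) (m := s) (not_lt.1 fun k =>
    nd ((pow_dvd_pow 2 k.le).mul_right _))
  have o' : Odd i' := Int.not_even_iff_odd.1 fun k => o k.two_dvd
  refine ⟨i' * u, 2 ^ d • (i' • 2 ^ s • v - j • w), c + s, o'.mul hu.natCast,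
    nsmul_mem (sub_mem (zsmul_mem (nsmul_mem v1 _) _) (zsmul_mem w1 _)) _, ?_⟩
  have : 2 ^ (c + s) • ((i' * u) • x - 2 ^ k • 2 ^ d • (i' • 2 ^ s • v - j • w)) = j • N • y := by
    rw [w3, ← sub_eq_zero, ← zsmul_zero i', ← nsmul_zero (2 ^ s), ← sub_eq_zero.2 v3, e0]
    module
  exact this ▸ zsmul_mem (nsmul_mem a N) j

end Vale.Agent.P014T.Ki
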