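import Vale.Agent.P014T.Ki.Two

/-!
# P014T, block KISO: the local torsion is finite, a local point at two which is not divisible
-/

set_option linter.all false

open scoped Classical

noncomputable section

namespace Vale.Agent.P014T.Ki

open NumberField
open Vale.Agent.P022 (Qb GQ)
open Vale.Agent.P022D.W (dec exists_phi phi_mem inP_le_dec)
open Vale.Agent.P022E.GW (Ov)
open Vale.Agent.P004M.TE (Pt ga ga_one xp_ga xp_eq)
open Vale.Agent.P004H.H666 (xp)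
open Vale.Agent.P004F

variable {A B : ℤ} (hD : 4 * A ^ 3 + 27 * B ^ 2 ≠ 0) {l : ℕ} {P : Ideal (𝓞 Qb)}
include hD

/-- the local points of order a power of two are finite in number -/
theorem fin_tors (h : Ov l P) :
    {x : Pt A B | x ∈ Fx (dec P) ga ∧ ∃ j : ℕ, 2 ^ j • x = 0}.Finite := by
  obtain ⟨v, h⟩ := P022K.G2.Lp.ex_nm h
  have hε : 0 < v (4 * (4 * algebraMap ℚ Qb A ^ 3 + 27 * algebraMap ℚ Qb B ^ 2)) := by
    refine v.pos (mul_ne_zero (by norm_num) fun k => hq hD ((algebraMap ℚ Qb).injective ?_))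
    simpa only [map_add, map_mul, map_pow, map_ofNat, map_zero] using k
  obtain ⟨m, hm⟩ := exists_pow_lt_of_lt_one hε h.lt
  refine ((Set.finite_iUnion (f := fun a : Fin (l ^ m) => {x : Pt A B | x ≠ 0 ∧
    (∃ j : ℕ, 2 ^ j • x = 0) ∧ v (xp x - (a : ℕ)) ≤ v l ^ m}) fun a => ?_).insert 0).subset ?_
  · by_contra n
    obtain ⟨q, q0, ⟨i, q1⟩, q2⟩ := Set.Infinite.nonempty n
    refine n ((Set.toFinite {q, -q}).subset fun r ⟨r0, ⟨j, r1⟩, r2⟩ =>
      xp_eq r0 q0 (by_contra fun ne => ?_))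
    have s := h.sub r2 q2
    rw [sub_sub_sub_cancel_right] at s
    exact absurd ((En.sep h (tor_up r1 i) (add_comm i j ▸ tor_up q1 j) r0 q0 ne).trans s)
      (not_le.2 hm)
  · rintro x ⟨a, j, b⟩
    by_cases x0 : x = 0
    · exact .inl x0
    obtain ⟨c, hc⟩ := h.ap m (xp x) (fun g hg => by rw [← xp_ga, a g hg]) (En.tors_int h b)
    exact .inr (Set.mem_iUnion.2 ⟨c, x0, ⟨j, b⟩, hc⟩)

/-- the local torsion is bounded -/
theorem ft (h : Ov l P) :
    ∃ k : ℕ, ∀ x : Pt A B, x ∈ Fx (dec P) ga → ∀ j : ℕ, 2 ^ j • x = 0 → 2 ^ k • x = 0 := by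
  have f := fin_tors hD h
  have := f.to_subtype
  choose j hj using fun x : {x : Pt A B | x ∈ Fx (dec P) ga ∧ ∃ j : ℕ, 2 ^ j • x = 0} => x.2.2
  obtain ⟨k, hk⟩ := (Set.finite_range j).bddAbove
  refine ⟨k, fun x a i b => ?_⟩
  obtain ⟨c, e⟩ := Nat.exists_eq_add_of_le (hk ⟨⟨x, a, i, b⟩, rfl⟩)
  exact e ▸ tor_up (hj _) c

/-- a local point at two which is not divisible by two modulo torsion -/
theorem x0 (h : Ov 2 P) : ∃ x : Pt A B, x ∈ Fx (dec P) ga ∧ ∀ (t : Pt A B) (j : ℕ), 2 ^ j • t = 0 →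
    ∀ y ∈ Fx (dec P) ga, x ≠ t + 2 • y := by
  by_contra! c
  obtain ⟨k, hk⟩ := ft hD h
  obtain ⟨φ, hφ⟩ := exists_phi h.1 h.2.1 h.2.2
  obtain ⟨N, N0, i⟩ := Ix.idx A B hD P φ h hφ 2 1 two_ne_zero one_ne_zero
  obtain ⟨e, -, e2, e3, -, e4, -⟩ := Qx.fr A B hD P h.2.1 h.2.2 2 two_ne_zero dvd_rfl φ hφ 1 one_pos
  have s : ∀ m, ∃ y ∈ Fx (dec P) ga, 2 ^ k • e = 2 ^ (k + m) • y := fun m => by
    induction m with
    | zero => exact ⟨e, fx_of h hφ e2 (pow_one φ ▸ e3), rfl⟩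
    | succ m ih =>
      obtain ⟨y, a, b⟩ := ih
      obtain ⟨t, j, t1, z, z1, rfl⟩ := c y a
      refine ⟨z, z1, ?_⟩
      rw [b, nsmul_add, tor_up (hk t (by simpa using sub_mem a (nsmul_mem z1 2)) j t1) m, zero_add,
        ← mul_smul, ← pow_succ, add_assoc]
  obtain ⟨y, a, b⟩ := s N
  have := e4 (k + N) (fun _ => (N * 2 ^ k : ℕ)) (N • y) (i y (fun g hg => a g (inP_le_dec hg))
    (a _ (pow_mem (phi_mem h.1 h.2.1 hφ) 1))) (by
      rw [Finset.sum_range_one, pow_zero, ga_one, natCast_zsmul, mul_smul, b, smul_comm]) 0 one_pos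
  rw [pow_add, mul_comm N] at this
  norm_cast at this
  exact (Nat.le_of_dvd (Nat.pos_of_ne_zero N0) (Nat.dvd_of_mul_dvd_mul_left (by positivity)
    this)).not_gt Nat.lt_two_pow_self

end Vale.Agent.P014T.Ki
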